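import Vale.Agent.P284.H213.MF.Mf
import Vale.Agent.P284.H213.Q.AsmQS

/-!
# P284, MF (helper213): assembly of MF for a class `D` of projective manifolds
-/

open scoped Manifold ContDiff Topology ENNReal
open Filter Set Metric MeasureTheory

noncomputable section

namespace Vale.Agent.P284.H213.MF

open Vale.Agent.P272.K Vale.Agent.P284.H573 Vale.Agent.P284.H894.G Vale.Agent.P284.H894.W
  Vale.Agent.P284.H494 Vale.Agent.P284.H998 Vale.Agent.P284.H672 Vale.Agent.P284.H224
  Vale.Agent.P284.H279 Vale.Agent.P284.H213.Grp Vale.Agent.P284.H213.Q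

/-- **MF(I)** for the class `D` -/
def OneD (D : Cls) : Prop :=
  ∀ (n q : ℕ) (X : Type) [TopologicalSpace X] [T2Space X] [CompactSpace X] [ConnectedSpace X]
    [ChartedSpace (Cm n) X] [IsManifold 𝓘(ℂ, Cm n) ω X] (ι : Type) [Fintype ι] (_ : PJ n X ι)
    (_ : D n X) (w : Chart n X → Cm n → Matrix (Fin n) (Fin n) ℂ), IsKahler w →
    ∀ (E Γ : Type) [TopologicalSpace E] [ConnectedSpace E] [Group Γ] [MulAction Γ E]
      (p : E → X), IsGalois Γ p →
    ∀ (F : E → Cm q) (c : Γ → Cm q), Per p w F c → (∃ y, Reg (n := n) p F y) → One n Γ p F c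

/-- **SIG** for the class `D`: no form with a good point on a covering. -/
def SigD (D : Cls) : Prop :=
  ∀ (n R m : ℕ) (_ : 1 ≤ R) (_ : 1 ≤ m) (X : Type) [TopologicalSpace X] [T2Space X]
    [CompactSpace X] [ConnectedSpace X] [ChartedSpace (Cm n) X] [IsManifold 𝓘(ℂ, Cm n) ω X]
    (ι : Type) [Fintype ι] (_ : PJ n X ι) (_ : D n X)
    (E : Type) [TopologicalSpace E] [ConnectedSpace E] (p : E → X) (_ : IsCoveringMap p)
    (_ : Function.Surjective p)
    (H : Type) [NormedAddCommGroup H] [InnerProductSpace ℂ H] [CompleteSpace H]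
    (v : E → Chart n X → (Fin R → Cm n) → H) (_ : HForm n R m p H v)
    (_ : ∃ y₀, GoodAt p R m v y₀), False

/-- **MF(II)** for the class `D`: there is no periodic divisor, invariant under no direction, over which
`F` has no regular point. -/
def NoRamD (D : Cls) : Prop :=
  ∀ (n q : ℕ) (X : Type) [TopologicalSpace X] [T2Space X] [CompactSpace X] [ConnectedSpace X]
    [ChartedSpace (Cm n) X] [IsManifold 𝓘(ℂ, Cm n) ω X] (ι : Type) [Fintype ι] (_ : PJ n X ι)
    (_ : D n X) (w : Chart n X → Cm n → Matrix (Fin n) (Fin n) ℂ), IsKahler w →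
    ∀ (E Γ : Type) [TopologicalSpace E] [ConnectedSpace E] [Group Γ] [MulAction Γ E]
      (p : E → X), IsGalois Γ p →
    ∀ (F : E → Cm q) (c : Γ → Cm q), Per p w F c → (∃ y, Reg (n := n) p F y) →
    ∀ (hc : LatChar Γ q c) (Ed : (Cm q → ℂ) → Cm q → Prop), PerDiv (per c hc) Ed →
      (zs Ed).Nonempty → (∀ y, F y ∈ zs Ed → ¬ Reg (n := n) p F y) →
      (∀ v : Cm q, (∀ s : ℂ, ∀ x ∈ zs Ed, x + s • v ∈ zs Ed) → v = 0) → False

/-- MF(I) from its modules -/
theorem oneD_of {D : Cls} (hEx : ExStmt) (hT5 : T5Stmt) (hLim : LimStmt) (hTail : TailStmt)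
    (hSig : SigD D) : OneD D := by
  intro n q X _ _ _ _ _ _ ι _ J hD w hw E Γ _ _ _ _ p hp F c hF hreg y y' hyy hrv
  by_contra hcon
  push Not at hcon
  obtain ⟨h, hh⟩ := hEx n q X ι J w hw E Γ p hp F c hF y y' hyy hrv hcon
  obtain ⟨W, _, _, _, h₁, hs, hU, hne⟩ := hLim n q X w E Γ p hp F c hF h hh
  obtain ⟨s, hs1, hs2⟩ := hT5 n q X ι J w E Γ p hp F c hF hreg W h₁ hs (by
    intro g _ y hy
    obtain ⟨U, hU⟩ := hU g
    rw [hU y hy, U.norm_map])
  obtain ⟨r, m, H, _, _, _, v, hr, hm, hv, hg⟩ := hTail n q X w E Γ p hp F c hF W h₁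
    { loc := hs.loc, ext := hs.ext, equiv := hU, int := ⟨s, hs1, hs2⟩, ne := hne }
  exact hSig n r m hr hm X ι J hD E p hp.cov hp.surj H v hv hg

theorem dirs_eq_bot {q : ℕ} {Λ : AddSubgroup (Cm q)} {Ed : (Cm q → ℂ) → Cm q → Prop}
    (hEd : PerDiv Λ Ed) (h : ∀ v : Cm q, (∀ s : ℂ, ∀ x ∈ zs Ed, x + s • v ∈ zs Ed) → v = 0) :
    dirs hEd = ⊥ := by
  rw [eq_bot_iff]
  intro v hv
  rw [Submodule.mem_bot]
  exact h v fun s x hx => (dirs_smul hEd ((dirs hEd).smul_mem s hv) x).2 hx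

/-- MF(II) for a class of manifolds with a map from `ℂᴺ` whose lift to every covering has rank `n`
at a regular point of `F` -/
theorem noRamD_of (hRam : RamStmt) {D : Cls}
    (hD : ∀ (n : ℕ) (X : Type) [TopologicalSpace X] [T2Space X] [CompactSpace X] [ConnectedSpace X]
      [ChartedSpace (Cm n) X] [IsManifold 𝓘(ℂ, Cm n) ω X], D n X →
      ∀ (E Γ : Type) [TopologicalSpace E] [ConnectedSpace E] [Group Γ] [MulAction Γ E]
      (p : E → X), IsGalois Γ p →
      ∀ (w : Chart n X → Cm n → Matrix (Fin n) (Fin n) ℂ) (q : ℕ) (F : E → Cm q) (B : ℝ),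
      HolB p w F B → (∃ y, Reg (n := n) p F y) →
      ∃ (N : ℕ) (Φ : Cm N → X) (Φl : Cm N → E) (ζ : Cm N), ContMDiff 𝓘(ℂ, Cm N) 𝓘(ℂ, Cm n) ω Φ ∧
        Continuous Φl ∧ (∀ z, p (Φl z) = Φ z) ∧ Reg (n := n) p F (Φl ζ) ∧
        Function.Surjective (mfderiv 𝓘(ℂ, Cm N) 𝓘(ℂ, Cm n) Φ ζ)) : NoRamD D := by
  intro n q X _ _ _ _ _ _ ι _ J hDX w hw E Γ _ _ _ _ p hp F c hF hreg hc Ed hEd hne hcrit hdir
  obtain ⟨B, hB⟩ := hF.hol
  obtain ⟨N, Φ, Φl, ζ, h1, h2, h3, h4, h5⟩ := hD n X hDX E Γ p hp w q F B hB hreg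
  exact no_ram_map hRam w hp hF hc hEd hne hcrit (dirs_eq_bot hEd hdir) h1 h2 h3 h4 h5

/-- **MF** for the class `D`: assembly -/
theorem mfD_of {D : Cls} (hOne : OneD D) (hRV : RVStmt) (hPre : PreStmt) (hBr : BrStmt)
    (hRam : NoRamD D) : MFD D := by
  intro n X _ _ _ _ _ _ ι _ J hD w hw E Γ _ _ _ _ p hp
  -- all regular fibres are connected
  have key : ∀ (q : ℕ) (F : E → Cm q) (c : Γ → Cm q), Per p w F c → LatChar Γ q c →
      (∃ y, Reg (n := n) p F y) → ∀ t ∈ RV n p F, IsConnected (F ⁻¹' {t}) := by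
    intro q
    induction q using Nat.strong_induction_on with
    | _ q ih =>
    intro F c hF hc hreg
    have hone := hOne n q X ι J hD w hw E Γ p hp F c hF hreg
    obtain ⟨Ed, hEd, hcrit, htop⟩ := hBr n q X w E Γ p hp F c hF hreg hone hc
    rcases (zs Ed).eq_empty_or_nonempty with hemp | hne
    · refine htop univ isOpen_univ convex_univ univ_nonempty ?_ ?_
      · rw [preimage_univ]; exact isPreconnected_univ
      · rw [hemp]; exact disjoint_empty _
    by_cases hdir : dirs hEd = ⊥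
    · exact (hRam n q X ι J hD w hw E Γ p hp F c hF hreg hc Ed hEd hne hcrit (fun v hv => by
        have := dirs_of hEd hv
        rwa [hdir, Submodule.mem_bot] at this)).elim
    -- the quotient torus
    set V : Submodule ℂ (Cm q) := dirs hEd with hV
    set r : ℕ := Module.finrank ℂ (Cm q ⧸ V) with hr
    have hVpos : 0 < Module.finrank ℂ V := Nat.pos_of_ne_zero fun h => hdir (Submodule.finrank_eq_zero.1 h)
    have hsum : Module.finrank ℂ (Cm q ⧸ V) + Module.finrank ℂ V = q := by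
      have := V.finrank_quotient_add_finrank
      rwa [Module.finrank_fin_fun] at this
    have hrq : r < q := by omega
    let e : (Cm q ⧸ V) ≃ₗ[ℂ] Cm r := LinearEquiv.ofFinrankEq _ _ (by
      rw [Module.finrank_fin_fun])
    set L : Cm q →ₗ[ℂ] Cm r := e.toLinearMap ∘ₗ V.mkQ with hL
    have hLs : Function.Surjective L := e.surjective.comp V.mkQ_surjective
    have hker : LinearMap.ker L = V := by
      ext v
      rw [LinearMap.mem_ker, hL, LinearMap.comp_apply, LinearEquiv.coe_coe,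
        LinearEquiv.map_eq_zero_iff, Submodule.mkQ_apply, Submodule.Quotient.mk_eq_zero]
    have hlat : LatChar Γ r (fun g => L (c g)) := by
      refine hc.quot ⊤ V (fun v hv => ?_) L hLs hker
      have h1 := dirs_span hEd (coco_of hc) hv
      refine Submodule.span_mono ?_ h1
      rintro x ⟨⟨g, rfl⟩, hx⟩
      exact ⟨⟨g, trivial, rfl⟩, hx⟩
    have hF' := per_linear hF L hlat
    obtain ⟨B, hB⟩ := hF.hol
    have hreg' : ∃ y, Reg (n := n) p (fun y => L (F y)) y := by
      obtain ⟨y, hy⟩ := hreg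
      exact ⟨y, Reg.linear hp.cov hB L hLs hy⟩
    have hih := ih r hrq (fun y => L (F y)) (fun g => L (c g)) hF' hlat hreg'
    have hpre := hPre n r X w E Γ p hp (fun y => L (F y)) (fun g => L (c g)) hF' hreg' hih
    -- a ball of the quotient which does not meet the divisor
    obtain ⟨t₀, ht₀⟩ := zs_ne_univ hEd
    have hLc : Continuous L := L.continuous_of_finiteDimensional
    have hLo : IsOpenMap L := by
      have := (LinearMap.toContinuousLinearMap L).isOpenMap hLs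
      exact this
    have hopen : IsOpen (L '' (zs Ed)ᶜ) := hLo _ (zs_closed hEd).isOpen_compl
    obtain ⟨ρ, hρ, hball⟩ := Metric.isOpen_iff.1 hopen (L t₀) ⟨t₀, ht₀, rfl⟩
    refine htop (L ⁻¹' ball (L t₀) ρ) (isOpen_ball.preimage hLc) ?_ ⟨t₀, mem_ball_self hρ⟩
      (hpre (ball (L t₀) ρ) isOpen_ball (convex_ball _ _)) ?_
    · exact (convex_ball (L t₀) ρ).linear_preimage (L.restrictScalars ℝ)
    · rw [Set.disjoint_left]
      intro t ht htz
      obtain ⟨s, hs, hst⟩ := hball ht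
      have h1 : t - s ∈ V := by
        rw [← hker, LinearMap.mem_ker, map_sub, hst, sub_self]
      apply hs
      have h2 := dirs_smul hEd h1 s
      rw [add_sub_cancel] at h2
      exact h2.1 htz
  intro q F c hB heq hc hreg
  have hF : Per p w F c := ⟨hB, heq, hc.disc⟩
  obtain ⟨h1, h2, -⟩ := hRV n q X w E Γ p hp F c hF hreg
  refine ⟨(RV n p F)ᶜ, h1.isClosed_compl, ?_, fun t ht => ?_⟩
  · rw [interior_compl, h2.closure_eq, compl_univ]
  · rw [notMem_compl_iff] at ht
    exact ⟨key q F c hF hc hreg t ht, ht⟩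

end Vale.Agent.P284.H213.MF
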