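import Vale.Agent.P284.H661.Rat
import Vale.Agent.P272.K.Stmt
import Mathlib.Analysis.Analytic.IsolatedZeros

/-!
# P284, MF (helper213): the stabiliser of a periodic hypersurface is rational
-/

open scoped ContDiff Topology
open Filter Set Metric

noncomputable section

namespace Vale.Agent.P284.H213.MF

/-! ### Closed subgroups of `ℝⁿ` -/

section
variable {V : Type*} [NormedAddCommGroup V] [NormedSpace ℝ V]

/-- the largest subspace contained in an additive subgroup -/
def lin (S : AddSubgroup V) : Submodule ℝ V where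
  carrier := {v | ∀ t : ℝ, t • v ∈ S}
  add_mem' {a b} ha hb t := by rw [smul_add]; exact S.add_mem (ha t) (hb t)
  zero_mem' t := by rw [smul_zero]; exact S.zero_mem
  smul_mem' r v hv t := by rw [smul_smul]; exact hv (t * r)

theorem mem_lin {S : AddSubgroup V} {v : V} : v ∈ lin S ↔ ∀ t : ℝ, t • v ∈ S := Iff.rfl

theorem lin_le {S : AddSubgroup V} {v : V} (h : v ∈ lin S) : v ∈ S := by
  have := h 1
  rwa [one_smul] at this

variable [FiniteDimensional ℝ V]

/-- the small elements of a closed subgroup lie in `lin S` -/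
theorem small_mem_lin (S : AddSubgroup V) (hS : IsClosed (S : Set V)) :
    ∃ ε : ℝ, 0 < ε ∧ ∀ s ∈ S, ‖s‖ < ε → s ∈ lin S := by
  by_contra hcon
  push Not at hcon
  obtain ⟨P, hP⟩ := LinearMap.exists_leftInverse_of_injective (lin S).subtype
    (by rw [Submodule.ker_subtype])
  have hP' : ∀ v ∈ lin S, ((P v : lin S) : V) = v := by
    intro v hv
    have := LinearMap.congr_fun hP ⟨v, hv⟩
    simpa using congrArg Subtype.val this
  set Q : V →ₗ[ℝ] V := LinearMap.id - (lin S).subtype ∘ₗ P with hQ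
  have hQv : ∀ v, Q v = v - (P v : V) := fun v => rfl
  have hQc : Continuous Q := Q.continuous_of_finiteDimensional
  have hpos : ∀ j : ℕ, (0 : ℝ) < 1 / ((j : ℝ) + 1) := fun j => by positivity
  choose s hsS hs hsn using fun j : ℕ => hcon (1 / ((j : ℝ) + 1)) (hpos j)
  have hs0 : Tendsto s atTop (𝓝 0) := by
    rw [tendsto_zero_iff_norm_tendsto_zero]
    exact squeeze_zero (fun j => norm_nonneg _) (fun j => (hs j).le)
      tendsto_one_div_add_atTop_nhds_zero_nat
  set b : ℕ → V := fun j => Q (s j) with hb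
  have hbS : ∀ j, b j ∈ S := fun j => S.sub_mem (hsS j) (lin_le (P (s j)).2)
  have hb0 : ∀ j, b j ≠ 0 := by
    intro j h0
    apply hsn j
    have : s j = (P (s j) : V) := sub_eq_zero.1 h0
    rw [this]
    exact (P (s j)).2
  have hbt : Tendsto b atTop (𝓝 0) := by
    have := (hQc.tendsto 0).comp hs0
    rwa [map_zero] at this
  have hPb : ∀ j, Q (b j) = b j := by
    intro j
    rw [hQv, hb]
    have h1 : P (Q (s j)) = 0 := by
      rw [hQv, map_sub]
      have h2 : P ((P (s j) : lin S) : V) = P (s j) := LinearMap.congr_fun hP (P (s j))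
      rw [h2, sub_self]
    show Q (s j) - (P (Q (s j)) : V) = Q (s j)
    rw [h1, Submodule.coe_zero, sub_zero]
  -- normalise
  set u : ℕ → V := fun j => (‖b j‖)⁻¹ • b j with hu
  have hnb : ∀ j, 0 < ‖b j‖ := fun j => norm_pos_iff.2 (hb0 j)
  have hun : ∀ j, u j ∈ sphere (0 : V) 1 := by
    intro j
    rw [mem_sphere_zero_iff_norm, hu, norm_smul, norm_inv, norm_norm, inv_mul_cancel₀ (hnb j).ne']
  obtain ⟨a, ha, φ, hφ, hlim⟩ := (isCompact_sphere (0 : V) 1).tendsto_subseq hun
  have hQa : Q a = a := by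
    have h1 : Tendsto (fun j => Q ((u ∘ φ) j)) atTop (𝓝 (Q a)) := (hQc.tendsto a).comp hlim
    have h2 : ∀ j, Q ((u ∘ φ) j) = (u ∘ φ) j := by
      intro j
      show Q ((‖b (φ j)‖)⁻¹ • b (φ j)) = (‖b (φ j)‖)⁻¹ • b (φ j)
      rw [map_smul, hPb]
    simp only [h2] at h1
    exact tendsto_nhds_unique h1 hlim
  have hain : a ∈ lin S := by
    intro t
    have hbφ : Tendsto (fun j => ‖b (φ j)‖) atTop (𝓝 0) := by
      have := (hbt.comp hφ.tendsto_atTop).norm
      rwa [norm_zero] at this
    -- `⌊t / ‖b‖⌋ ‖b‖ → t`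
    have h1 : Tendsto (fun j => ((⌊t / ‖b (φ j)‖⌋ : ℤ) : ℝ) * ‖b (φ j)‖) atTop (𝓝 t) := by
      rw [tendsto_iff_norm_sub_tendsto_zero]
      refine squeeze_zero (fun j => norm_nonneg _) (fun j => ?_) hbφ
      have hp := hnb (φ j)
      have h2 := Int.floor_le (t / ‖b (φ j)‖)
      have h3 := Int.lt_floor_add_one (t / ‖b (φ j)‖)
      rw [le_div_iff₀ hp] at h2
      rw [div_lt_iff₀ hp] at h3
      rw [Real.norm_eq_abs, abs_le]
      constructor <;> nlinarith
    have h2 : Tendsto (fun j => (⌊t / ‖b (φ j)‖⌋ : ℤ) • b (φ j)) atTop (𝓝 (t • a)) := by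
      refine (h1.smul hlim).congr fun j => ?_
      show (((⌊t / ‖b (φ j)‖⌋ : ℤ) : ℝ) * ‖b (φ j)‖) • (‖b (φ j)‖)⁻¹ • b (φ j) = _
      rw [smul_smul, mul_assoc, mul_inv_cancel₀ (hnb (φ j)).ne', mul_one, Int.cast_smul_eq_zsmul]
    exact hS.mem_of_tendsto h2 (Eventually.of_forall fun j => S.zsmul_mem (hbS (φ j)) _)
  have h3 : a = 0 := by
    have h4 := hQv a
    rw [hQa, hP' a hain, sub_self] at h4
    exact h4
  rw [mem_sphere_zero_iff_norm, h3, norm_zero] at ha
  exact one_ne_zero ha.symm

/-- `lin S` is rational for every cocompact subgroup `Λ` of the closed group `S` -/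
theorem span_lin {S Λ : AddSubgroup V} (hS : IsClosed (S : Set V)) (hΛS : Λ ≤ S)
    (hΛ : H661.Cocpt Λ) : Submodule.span ℝ ((Λ : Set V) ∩ lin S) = lin S := by
  obtain ⟨ε, hε, h⟩ := small_mem_lin S hS
  refine H661.span_eq_of_near hΛ (lin S) hε ?_
  rintro l hl ⟨a, ha, hla⟩
  have h1 := h (l - a) (S.sub_mem (hΛS hl) (lin_le ha)) hla
  have h2 := (lin S).add_mem h1 ha
  rwa [sub_add_cancel] at h2

end

/-! ### Stabilisers of closed sets -/

section
variable {V : Type*} [NormedAddCommGroup V]

/-- the stabiliser of a set -/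
def stab (D : Set V) : AddSubgroup V where
  carrier := {v | ∀ x, x + v ∈ D ↔ x ∈ D}
  add_mem' {a b} ha hb x := by rw [← add_assoc, hb, ha]
  zero_mem' x := by rw [add_zero]
  neg_mem' {a} ha x := by
    rw [← ha (x + -a), neg_add_cancel_right]

theorem mem_stab {D : Set V} {v : V} : v ∈ stab D ↔ ∀ x, x + v ∈ D ↔ x ∈ D := Iff.rfl

theorem isClosed_stab {D : Set V} (hD : IsClosed D) : IsClosed (stab D : Set V) := by
  have h1 : (stab D : Set V) = (⋂ x ∈ D, {v | x + v ∈ D}) ∩ ⋂ x ∈ D, {v | x - v ∈ D} := by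
    ext v
    simp only [SetLike.mem_coe, mem_stab, mem_inter_iff, mem_iInter, Set.mem_ofPred_eq]
    constructor
    · intro h
      refine ⟨fun x hx => (h x).2 hx, fun x hx => ?_⟩
      rw [← h (x - v), sub_add_cancel]
      exact hx
    · rintro ⟨h1, h2⟩ x
      refine ⟨fun h => ?_, h1 x⟩
      have := h2 _ h
      rwa [add_sub_cancel_right] at this
  rw [h1]
  refine IsClosed.inter ?_ ?_
  · exact isClosed_biInter fun x _ => hD.preimage (by fun_prop)
  · exact isClosed_biInter fun x _ => hD.preimage (by fun_prop)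

end

/-- a closed set with analytic local equations: the linear part of its stabiliser is complex -/
theorem lin_complex {V : Type*} [NormedAddCommGroup V] [NormedSpace ℂ V] {D : Set V}
    (hD : IsClosed D)
    (hloc : ∀ x ∈ D, ∃ θ : V → ℂ, AnalyticAt ℂ θ x ∧ ∀ᶠ z in 𝓝 x, z ∈ D ↔ θ z = 0)
    {v : V} (hv : v ∈ lin (stab D)) (s : ℂ) : s • v ∈ stab D := by
  have key : ∀ x ∈ D, ∀ s : ℂ, x + s • v ∈ D := by
    intro x hx
    set A : Set ℂ := {s | x + s • v ∈ D} with hA
    have hcl : IsClosed A := hD.preimage (by fun_prop)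
    have hop : IsOpen A := by
      rw [isOpen_iff_mem_nhds]
      intro s₀ hs₀
      obtain ⟨θ, hθ, hθD⟩ := hloc _ hs₀
      set f : ℂ → ℂ := fun s => θ (x + s • v) with hf
      have hline : AnalyticAt ℂ (fun s : ℂ => x + s • v) s₀ :=
        analyticAt_const.add (analyticAt_id.smul analyticAt_const)
      have hfan : AnalyticAt ℂ f s₀ := AnalyticAt.fun_comp (g := θ) hθ hline
      have hcont : Tendsto (fun s : ℂ => x + s • v) (𝓝 s₀) (𝓝 (x + s₀ • v)) :=
        hline.continuousAt
      have hev := hcont.eventually hθD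
      rcases hfan.eventually_eq_zero_or_eventually_ne_zero with h0 | h0
      · filter_upwards [h0, hev] with s h1 h2
        exact h2.2 h1
      · exfalso
        -- the real points near `s₀` are zeros
        have hr : Tendsto (fun t : ℝ => s₀ + (t : ℂ)) (𝓝[≠] 0) (𝓝[≠] s₀) := by
          refine tendsto_nhdsWithin_of_tendsto_nhds_of_eventually_within _ ?_ ?_
          · have : Tendsto (fun t : ℝ => s₀ + (t : ℂ)) (𝓝 0) (𝓝 (s₀ + ((0 : ℝ) : ℂ))) :=
              (continuous_const.add Complex.continuous_ofReal).tendsto 0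
            rw [Complex.ofReal_zero, add_zero] at this
            exact this.mono_left nhdsWithin_le_nhds
          · filter_upwards [self_mem_nhdsWithin] with t ht
            intro h1
            apply ht
            have h2 : (t : ℂ) = 0 := by
              have : s₀ + (t : ℂ) = s₀ := h1
              exact left_eq_add.1 this.symm
            exact_mod_cast h2
        have h1 := hr.eventually h0
        have h2 := (hr.mono_right nhdsWithin_le_nhds).eventually hev
        obtain ⟨t, ht1, ht2⟩ := (h1.and h2).exists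
        apply ht1
        refine ht2.1 ?_
        have h3 : x + (s₀ + (t : ℂ)) • v = (x + s₀ • v) + t • v := by
          rw [add_smul, Complex.coe_smul, add_assoc]
        rw [h3]
        exact (hv t (x + s₀ • v)).2 hs₀
    have huniv : A = univ := IsClopen.eq_univ ⟨hcl, hop⟩ ⟨0, by simpa [hA] using hx⟩
    intro s
    have : s ∈ A := huniv ▸ mem_univ s
    exact this
  intro x
  refine ⟨fun h => ?_, fun h => key x h s⟩
  have := key _ h (-s)
  rwa [neg_smul, add_neg_cancel_right] at this

end Vale.Agent.P284.H213.MF
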