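import Vale.Agent.P284.H213.MF.One
import Vale.Agent.P284.H213.Grp.AsmS
import Vale.Agent.P284.H213.Grp.Lat
import Vale.Agent.P284.H279.TPS

/-!
# P284, MF (helper213): assembly of MF, statements of the inputs MF(II)

* `D1Stmt` (helper136, helper419): the divisorial part of the set of values without regular point;
* `BrStmt`: divisorial part and topology combined (from `D1Stmt` and `H224.TopStmt`; or from
  helper885's branch locus);
* `RamStmt` (helper383).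
-/

open scoped Manifold ContDiff Topology ENNReal
open Filter Set Metric MeasureTheory

noncomputable section

namespace Vale.Agent.P284.H213.MF

open Vale.Agent.P272.K Vale.Agent.P284.H573 Vale.Agent.P284.H894.G Vale.Agent.P284.H894.W
  Vale.Agent.P284.H494 Vale.Agent.P284.H998 Vale.Agent.P284.H672 Vale.Agent.P284.H224
  Vale.Agent.P284.H221 Vale.Agent.P284.H279 Vale.Agent.P284.H213.Grp

/-- the group of periods -/
def per {Γ : Type} [Group Γ] {q : ℕ} (c : Γ → Cm q) (h : LatChar Γ q c) : AddSubgroup (Cm q) where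
  carrier := Set.range c
  add_mem' := by
    rintro _ _ ⟨g, rfl⟩ ⟨k, rfl⟩
    exact ⟨g * k, h.add g k⟩
  zero_mem' := ⟨1, h.map_one⟩
  neg_mem' := by
    rintro _ ⟨g, rfl⟩
    exact ⟨g⁻¹, h.map_inv g⟩

theorem mem_per {Γ : Type} [Group Γ] {q : ℕ} {c : Γ → Cm q} {h : LatChar Γ q c} {v : Cm q} :
    v ∈ per c h ↔ ∃ g, c g = v := Iff.rfl

/-- **D1**: the divisorial part of `NR` -/
def D1Stmt : Prop :=
  ∀ (n q : ℕ) (X : Type) [TopologicalSpace X] [T2Space X] [CompactSpace X] [ConnectedSpace X]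
    [ChartedSpace (Cm n) X] [IsManifold 𝓘(ℂ, Cm n) ω X]
    (w : Chart n X → Cm n → Matrix (Fin n) (Fin n) ℂ)
    (E Γ : Type) [TopologicalSpace E] [ConnectedSpace E] [Group Γ] [MulAction Γ E]
    (p : E → X), IsGalois Γ p →
    ∀ (F : E → Cm q) (c : Γ → Cm q), Per p w F c → (∃ y, Reg (n := n) p F y) →
    ∀ hc : LatChar Γ q c, ∃ Ed : (Cm q → ℂ) → Cm q → Prop, PerDiv (per c hc) Ed ∧
      zs Ed ⊆ NR n p F ∧ Small q (NR n p F \ zs Ed)

/-- **D1 + D2** -/
def BrStmt : Prop :=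
  ∀ (n q : ℕ) (X : Type) [TopologicalSpace X] [T2Space X] [CompactSpace X] [ConnectedSpace X]
    [ChartedSpace (Cm n) X] [IsManifold 𝓘(ℂ, Cm n) ω X]
    (w : Chart n X → Cm n → Matrix (Fin n) (Fin n) ℂ)
    (E Γ : Type) [TopologicalSpace E] [ConnectedSpace E] [Group Γ] [MulAction Γ E]
    (p : E → X), IsGalois Γ p →
    ∀ (F : E → Cm q) (c : Γ → Cm q), Per p w F c → (∃ y, Reg (n := n) p F y) → One n Γ p F c →
    ∀ hc : LatChar Γ q c, ∃ Ed : (Cm q → ℂ) → Cm q → Prop, PerDiv (per c hc) Ed ∧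
      (∀ y, F y ∈ zs Ed → ¬ Reg (n := n) p F y) ∧
      ∀ O : Set (Cm q), IsOpen O → Convex ℝ O → O.Nonempty → IsPreconnected (F ⁻¹' O) →
        Disjoint O (zs Ed) → ∀ t ∈ RV n p F, IsConnected (F ⁻¹' {t})

/-- **RAM** (helper383) -/
def RamStmt : Prop :=
  ∀ (q : ℕ) (Λ : AddSubgroup (Cm q)) (Ed : (Cm q → ℂ) → Cm q → Prop), PerDiv Λ Ed → Coco Λ →
    (zs Ed).Nonempty →
    (∀ v : Cm q, (∀ s : ℂ, ∀ x ∈ zs Ed, x + s • v ∈ zs Ed) → v = 0) →
    ∀ g : Cm q → Cm q, Differentiable ℂ g → (∀ z, g z ∈ zs Ed → (fderiv ℂ g z).det = 0) →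
    ∀ z, (fderiv ℂ g z).det = 0

end Vale.Agent.P284.H213.MF
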