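import Vale.Agent.P284.H213.MF.MfF
import Vale.Agent.P284.H672.TY
import Vale.Agent.P284.H661.Lim6
import Vale.Agent.P284.H136.Div7
import Vale.Agent.P284.H419.D1

/-!
# P284, MF (helper213): MF for dominated manifolds
-/

open scoped Manifold ContDiff Topology ENNReal
open Filter Set Metric MeasureTheory

noncomputable section

namespace Vale.Agent.P284.H213.MF

open Vale.Agent.P272.K Vale.Agent.P284.H573 Vale.Agent.P284.H894.G Vale.Agent.P284.H894.W
  Vale.Agent.P284.H494 Vale.Agent.P284.H998 Vale.Agent.P284.H672 Vale.Agent.P284.H224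
  Vale.Agent.P284.H279 Vale.Agent.P284.H213.Grp Vale.Agent.P284.H213.Q

theorem d1Stmt : D1Stmt := H419.d1_of H136.divStmt

/-- **MF** for dominated manifolds -/
theorem mfStmt : Grp.MFStmt := mfStmt_of exStmt t5Stmt H661.Lim.limStmt d1Stmt

/-- **MF** for a class of manifolds with SIG and RAM -/
theorem mfDU {D : Cls} (hSig : SigD D) (hRam : NoRamD D) : MFD D :=
  mfD_of' exStmt t5Stmt H661.Lim.limStmt d1Stmt hSig hRam

theorem mfD_dom (N : ℕ) : MFD (domC N) := mfDU (sigD_dom N) (noRamD_dom N)

end Vale.Agent.P284.H213.MF
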