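import Vale.Agent.P284.H213.MF.MfS
import Vale.Agent.P284.H213.MF.Stab
import Vale.Agent.P284.H213.Grp.Asm
import Vale.Agent.P284.H213.Grp.CovP
import Vale.Agent.P284.H812.Ext

/-!
# P284, MF (helper213): assembly of MF
-/

open scoped Manifold ContDiff Topology ENNReal
open Filter Set Metric MeasureTheory

noncomputable section

namespace Vale.Agent.P284.H213.MF

open Vale.Agent.P272.K Vale.Agent.P284.H573 Vale.Agent.P284.H894.G Vale.Agent.P284.H894.W
  Vale.Agent.P284.H494 Vale.Agent.P284.H998 Vale.Agent.P284.H672 Vale.Agent.P284.H224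
  Vale.Agent.P284.H221 Vale.Agent.P284.H279 Vale.Agent.P284.H213.Grp

theorem Small.mono {q : ℕ} {S S' : Set (Cm q)} (h : Small q S') (hS : S ⊆ S') : Small q S := by
  rcases h with h | ⟨h1, h2⟩
  · exact Or.inl (subset_eq_empty (h ▸ hS) rfl)
  · exact Or.inr ⟨h1, h2.mono hS⟩

/-- `D1` and the topology of helper224 give `BrStmt` -/
theorem br_of (h1 : D1Stmt) (h2 : TopStmt) : BrStmt := by
  intro n q X _ _ _ _ _ _ w E Γ _ _ _ _ p hp F c hF hreg hone hc
  obtain ⟨Ed, hEd, hsub, hsm⟩ := h1 n q X w E Γ p hp F c hF hreg hc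
  refine ⟨Ed, hEd, fun y hy => hsub hy y rfl, fun O hO hOc hOn hpre hdis => ?_⟩
  refine h2 n q X w E Γ p hp F c hF hreg hone O hO hOc hOn hpre (Small.mono hsm ?_)
  rintro t ⟨ht, htO⟩
  exact ⟨ht, fun h => (Set.disjoint_left.1 hdis) htO h⟩

/-! ### Periodic divisors -/

section
variable {q : ℕ} {Λ : AddSubgroup (Cm q)} {Ed : (Cm q → ℂ) → Cm q → Prop}

theorem zs_iff (h : PerDiv Λ Ed) {θ : Cm q → ℂ} {x : Cm q} (hθ : Ed θ x) :
    x ∈ zs Ed ↔ θ x = 0 := by
  constructor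
  · rintro ⟨θ', hθ', h0⟩
    obtain ⟨u, -, -, hev⟩ := h.unit θ θ' x hθ hθ'
    rw [hev.self_of_nhds, h0, mul_zero]
  · intro h0
    exact ⟨θ, hθ, h0⟩

theorem zs_loc (h : PerDiv Λ Ed) (x : Cm q) :
    ∃ θ : Cm q → ℂ, AnalyticAt ℂ θ x ∧ (¬ ∀ᶠ z in 𝓝 x, θ z = 0) ∧
      ∀ᶠ z in 𝓝 x, z ∈ zs Ed ↔ θ z = 0 := by
  obtain ⟨θ, hθ⟩ := h.ex x
  refine ⟨θ, h.ana θ x hθ, h.ne θ x hθ, ?_⟩
  filter_upwards [h.opn θ x hθ] with z hz
  exact zs_iff h hz

theorem zs_closed (h : PerDiv Λ Ed) : IsClosed (zs Ed) := by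
  rw [← isOpen_compl_iff, isOpen_iff_mem_nhds]
  intro x hx
  obtain ⟨θ, hθ, -, hev⟩ := zs_loc h x
  have h1 : θ x ≠ 0 := fun h0 => hx (hev.self_of_nhds.2 h0)
  filter_upwards [hev, hθ.continuousAt.eventually_ne h1] with z h2 h3
  exact fun h4 => h3 (h2.1 h4)

theorem zs_ne_univ (h : PerDiv Λ Ed) : ∃ x, x ∉ zs Ed := by
  by_contra hcon
  push Not at hcon
  obtain ⟨θ, -, hne, hev⟩ := zs_loc h 0
  apply hne
  filter_upwards [hev] with z hz
  exact hz.1 (hcon z)

theorem le_stab (h : PerDiv Λ Ed) : Λ ≤ stab (zs Ed) := by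
  have key : ∀ l ∈ Λ, ∀ x ∈ zs Ed, x + l ∈ zs Ed := by
    rintro l hl x ⟨θ, hθ, h0⟩
    exact ⟨_, h.per θ x hθ l hl, by simpa using h0⟩
  intro l hl x
  refine ⟨fun hx => ?_, key l hl x⟩
  have := key (-l) (Λ.neg_mem hl) _ hx
  rwa [add_neg_cancel_right] at this

/-- the complex subspace of the directions which leave the divisor invariant -/
def dirs (h : PerDiv Λ Ed) : Submodule ℂ (Cm q) where
  carrier := lin (stab (zs Ed))
  add_mem' ha hb := (lin (stab (zs Ed))).add_mem ha hb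
  zero_mem' := (lin (stab (zs Ed))).zero_mem
  smul_mem' s v hv := by
    intro t
    have h1 := lin_complex (zs_closed h) (fun x _ => by
      obtain ⟨θ, h1, -, h2⟩ := zs_loc h x
      exact ⟨θ, h1, h2⟩) hv ((t : ℂ) * s)
    rw [mul_smul] at h1
    exact h1

theorem mem_dirs (h : PerDiv Λ Ed) {v : Cm q} : v ∈ dirs h ↔ v ∈ lin (stab (zs Ed)) := Iff.rfl

theorem dirs_smul (h : PerDiv Λ Ed) {v : Cm q} (hv : v ∈ dirs h) (x : Cm q) :
    x + v ∈ zs Ed ↔ x ∈ zs Ed := (lin_le (show v ∈ lin (stab (zs Ed)) from hv)) x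

theorem dirs_of (h : PerDiv Λ Ed) {v : Cm q} (hv : ∀ s : ℂ, ∀ x ∈ zs Ed, x + s • v ∈ zs Ed) :
    v ∈ dirs h := by
  intro t x
  refine ⟨fun h1 => ?_, fun h1 => hv (t : ℂ) x h1⟩
  have := hv (-(t : ℂ)) _ h1
  rwa [neg_smul, Complex.coe_smul, add_neg_cancel_right] at this

theorem dirs_span (h : PerDiv Λ Ed) (hΛ : Coco Λ) {v : Cm q} (hv : v ∈ dirs h) :
    v ∈ Submodule.span ℝ ((Λ : Set (Cm q)) ∩ (dirs h : Set (Cm q))) := by
  have h1 := span_lin (isClosed_stab (zs_closed h)) (le_stab h) hΛ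
  have h2 : v ∈ lin (stab (zs Ed)) := hv
  rw [← h1] at h2
  exact h2

end

/-- a lattice is relatively dense -/
theorem coco_of {Γ : Type} [Group Γ] {q : ℕ} {c : Γ → Cm q} (hc : LatChar Γ q c) :
    Coco (per c hc) := by
  obtain ⟨C, -, hC⟩ := hc.near ⊤ ⊤ (fun v _ => by
    have h1 : ({v | ∃ g ∈ (⊤ : Subgroup Γ), c g = v} ∩ ((⊤ : Submodule ℝ (Cm q)) : Set (Cm q))) =
        Set.range c := by
      ext v
      simp
    rw [h1, hc.span]
    trivial)
  refine ⟨C, fun z => ?_⟩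
  obtain ⟨d, -, -, hd⟩ := hC z trivial
  exact ⟨c d, ⟨d, rfl⟩, hd⟩

/-- `Per` is inherited by quotient tori -/
theorem per_linear {n : ℕ} {X : Type} [TopologicalSpace X] [ChartedSpace (Cm n) X]
    {E Γ : Type} [TopologicalSpace E] [Group Γ] [MulAction Γ E] {p : E → X}
    {w : Chart n X → Cm n → Matrix (Fin n) (Fin n) ℂ} {q r : ℕ} {F : E → Cm q} {c : Γ → Cm q}
    (h : Per p w F c) (L : Cm q →ₗ[ℂ] Cm r) (hL : LatChar Γ r (fun g => L (c g))) :
    Per p w (fun y => L (F y)) (fun g => L (c g)) where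
  hol := by
    obtain ⟨B, hB⟩ := h.hol
    exact HolB.linear hB L
  equiv g y := by rw [h.equiv, map_add]
  disc := hL.disc

/-- no direction leaves the divisor invariant: RAM gives a contradiction, if there is a map
`Φ : ℂᴺ → X` such that `F ∘ Φ~` has rank `q` somewhere -/
theorem no_ram_map (hRam : RamStmt) {n N q : ℕ} {X : Type} [TopologicalSpace X]
    [ChartedSpace (Cm n) X] [IsManifold 𝓘(ℂ, Cm n) ω X]
    (w : Chart n X → Cm n → Matrix (Fin n) (Fin n) ℂ)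
    {E Γ : Type} [TopologicalSpace E] [ConnectedSpace E] [Group Γ] [MulAction Γ E]
    {p : E → X} (hp : IsGalois Γ p) {F : E → Cm q} {c : Γ → Cm q} (hF : Per p w F c)
    (hc : LatChar Γ q c) {Ed : (Cm q → ℂ) → Cm q → Prop}
    (hEd : PerDiv (per c hc) Ed) (hne : (zs Ed).Nonempty)
    (hcrit : ∀ y, F y ∈ zs Ed → ¬ Reg (n := n) p F y)
    (hdir : dirs hEd = ⊥) {Φ : Cm N → X} {Φl : Cm N → E} {ζ : Cm N}
    (hΦ : ContMDiff 𝓘(ℂ, Cm N) 𝓘(ℂ, Cm n) ω Φ) (hΦl : Continuous Φl) (hpΦ : ∀ z, p (Φl z) = Φ z)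
    (hζ : Reg (n := n) p F (Φl ζ))
    (hsur : Function.Surjective (mfderiv 𝓘(ℂ, Cm N) 𝓘(ℂ, Cm n) Φ ζ)) : False := by
  obtain ⟨B, hB⟩ := hF.hol
  set G : Cm N → Cm q := fun z => F (Φl z) with hG
  -- `G` is entire
  have hchain : ∀ z, ∃ (e : Chart n X) (f : Cm n → Cm q), At e (Φ z) ∧
      (∀ᶠ y' in 𝓝 (Φl z), F y' = f (e (p y'))) ∧ DifferentiableAt ℂ f (e (Φ z)) ∧
      DifferentiableAt ℂ (fun ξ => e (Φ ξ)) z ∧ G =ᶠ[𝓝 z] fun ξ => f (e (Φ ξ)) := by
    intro z
    have he : At (chartAt (Cm n) (Φ z)) (Φ z) := ⟨chart_mem_atlas _ _, mem_chart_source _ _⟩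
    obtain ⟨f, h1, h2, -⟩ := hB (Φl z) (chartAt (Cm n) (Φ z)) (by rw [hpΦ]; exact he)
    rw [hpΦ] at h2
    refine ⟨chartAt (Cm n) (Φ z), f, he, h1, h2.self_of_nhds, ?_, ?_⟩
    · have h3 : MDifferentiableAt 𝓘(ℂ, Cm N) 𝓘(ℂ, Cm n) Φ z := (hΦ.mdifferentiable (by simp)) z
      have h4 : MDifferentiableAt 𝓘(ℂ, Cm n) 𝓘(ℂ, Cm n) (chartAt (Cm n) (Φ z)) (Φ z) :=
        (chart_contMDiffAt he).mdifferentiableAt (by simp)
      exact (h4.comp z h3).differentiableAt
    · filter_upwards [(hΦl.tendsto z).eventually h1] with ξ hξ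
      show F (Φl ξ) = _
      rw [hξ, hpΦ]
  have hGd : Differentiable ℂ G := by
    intro z
    obtain ⟨e, f, -, -, h1, h2, h3⟩ := hchain z
    exact (h1.comp z h2).congr_of_eventuallyEq h3
  -- where `G` lies in the divisor, its rank is less than `q`
  have hrk : ∀ z, G z ∈ zs Ed → ¬ Function.Surjective (fderiv ℂ G z) := by
    intro z hz hs
    obtain ⟨e, f, he, h0, h1, h2, h3⟩ := hchain z
    apply hcrit (Φl z) hz
    intro e' f' he' hf'
    -- `f'` and `G`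
    have hpz : p (Φl z) = Φ z := hpΦ z
    have h4 : MDifferentiableAt 𝓘(ℂ, Cm N) 𝓘(ℂ, Cm n) Φ z := (hΦ.mdifferentiable (by simp)) z
    rw [hpz] at he'
    have h5 : MDifferentiableAt 𝓘(ℂ, Cm n) 𝓘(ℂ, Cm n) e' (Φ z) :=
      (chart_contMDiffAt he').mdifferentiableAt (by simp)
    have h6 : DifferentiableAt ℂ (fun ξ => e' (Φ ξ)) z := (h5.comp z h4).differentiableAt
    obtain ⟨f'', g1, g2, -⟩ := hB (Φl z) e' (by rw [hpz]; exact he')
    have hmap : map (fun y' => e' (p y')) (𝓝 (Φl z)) = 𝓝 (e' (p (Φl z))) := by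
      have hs' : p (Φl z) ∈ e'.source := by rw [hpz]; exact he'.2
      rw [← e'.map_nhds_eq hs', ← hp.cov.isLocalHomeomorph.map_nhds_eq (Φl z), Filter.map_map]
      rfl
    have h7 : f' =ᶠ[𝓝 (e' (p (Φl z)))] f'' := by
      rw [Filter.EventuallyEq, ← hmap, eventually_map]
      filter_upwards [hf', g1] with y' a b
      rw [← a, b]
    rw [h7.fderiv_eq, hpz]
    rw [hpz] at g2
    have h8 : G =ᶠ[𝓝 z] fun ξ => f'' (e' (Φ ξ)) := by
      filter_upwards [(hΦl.tendsto z).eventually g1] with ξ hξ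
      show F (Φl ξ) = _
      rw [hξ, hpΦ]
    have h9 : fderiv ℂ G z = (fderiv ℂ f'' (e' (Φ z))).comp (fderiv ℂ (fun ξ => e' (Φ ξ)) z) := by
      rw [h8.fderiv_eq]
      exact (g2.self_of_nhds.hasFDerivAt.comp z h6.hasFDerivAt).fderiv
    rw [h9] at hs
    intro t
    obtain ⟨v, hv⟩ := hs t
    exact ⟨_, hv⟩
  -- the rank of `G` at `ζ` is `q`
  have hrζ : Function.Surjective (fderiv ℂ G ζ) := by
    obtain ⟨e, f, he, h0, h1, h2, h3⟩ := hchain ζ
    have h4 : MDifferentiableAt 𝓘(ℂ, Cm N) 𝓘(ℂ, Cm n) Φ ζ := (hΦ.mdifferentiable (by simp)) ζ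
    have h5 := (H885.surj_mfderiv_iff h4 he).1 hsur
    have h6 : Function.Surjective (fderiv ℂ f (e (p (Φl ζ)))) := hζ e f (by rw [hpΦ]; exact he) h0
    rw [hpΦ] at h6
    rw [h3.fderiv_eq]
    have h7 : fderiv ℂ (fun ξ => f (e (Φ ξ))) ζ =
        (fderiv ℂ f (e (Φ ζ))).comp (fderiv ℂ (fun ξ => e (Φ ξ)) ζ) :=
      (h1.hasFDerivAt.comp ζ h2.hasFDerivAt).fderiv
    rw [h7]
    exact h6.comp h5
  -- an affine slice
  obtain ⟨A, hA⟩ := LinearMap.exists_rightInverse_of_surjective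
    (fderiv ℂ G ζ : Cm N →ₗ[ℂ] Cm q) (LinearMap.range_eq_top.2 hrζ)
  set A' : Cm q →L[ℂ] Cm N := LinearMap.toContinuousLinearMap A with hA'
  set g : Cm q → Cm q := fun u => G (ζ + A' u) with hg
  have hgd : Differentiable ℂ g := hGd.comp ((differentiable_const _).add A'.differentiable)
  have hgf : ∀ u, fderiv ℂ g u = (fderiv ℂ G (ζ + A' u)).comp A' := by
    intro u
    have h1 : HasFDerivAt (fun u => ζ + A' u) A' u := by
      simpa using (hasFDerivAt_const ζ u).add A'.hasFDerivAt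
    exact ((hGd (ζ + A' u)).hasFDerivAt.comp u h1).fderiv
  have h0 := hRam q (per c hc) Ed hEd (coco_of hc) hne (fun v hv => by
    have := dirs_of hEd hv
    rw [hdir, Submodule.mem_bot] at this
    exact this) g hgd (fun u hu => by
      by_contra hdet
      apply hrk _ hu
      have hs : Function.Surjective (fderiv ℂ g u) := by
        have h2 : LinearMap.det (fderiv ℂ g u : Cm q →ₗ[ℂ] Cm q) ≠ 0 := hdet
        exact (LinearEquiv.ofIsUnitDet
          (f := (fderiv ℂ g u : Cm q →ₗ[ℂ] Cm q)) (v := Pi.basisFun ℂ (Fin q))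
          (v' := Pi.basisFun ℂ (Fin q)) (by
            rw [LinearMap.det_toMatrix]
            exact isUnit_iff_ne_zero.2 h2)).surjective
      rw [hgf] at hs
      intro t
      obtain ⟨v, hv⟩ := hs t
      exact ⟨_, hv⟩) 0
  have h1 : fderiv ℂ g 0 = ContinuousLinearMap.id ℂ (Cm q) := by
    rw [hgf, map_zero, add_zero]
    ext1 v
    exact LinearMap.congr_fun hA v
  rw [h1] at h0
  have h2 : (ContinuousLinearMap.id ℂ (Cm q)).det = 1 := by
    show LinearMap.det ((ContinuousLinearMap.id ℂ (Cm q) : Cm q →L[ℂ] Cm q) : Cm q →ₗ[ℂ] Cm q) = 1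
    rw [ContinuousLinearMap.coe_id, LinearMap.det_id]
  rw [h2] at h0
  exact one_ne_zero h0

/-- no direction leaves the divisor invariant: RAM and the domination give a contradiction -/
theorem no_ram (hRam : RamStmt) {n N q : ℕ} {X : Type} [TopologicalSpace X] [T2Space X]
    [CompactSpace X] [ConnectedSpace X] [ChartedSpace (Cm n) X] [IsManifold 𝓘(ℂ, Cm n) ω X]
    (hD : Dom N n X) (w : Chart n X → Cm n → Matrix (Fin n) (Fin n) ℂ)
    {E Γ : Type} [TopologicalSpace E] [ConnectedSpace E] [Group Γ] [MulAction Γ E]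
    {p : E → X} (hp : IsGalois Γ p) {F : E → Cm q} {c : Γ → Cm q} (hF : Per p w F c)
    (hreg : ∃ y, Reg (n := n) p F y) (hc : LatChar Γ q c) {Ed : (Cm q → ℂ) → Cm q → Prop}
    (hEd : PerDiv (per c hc) Ed) (hne : (zs Ed).Nonempty)
    (hcrit : ∀ y, F y ∈ zs Ed → ¬ Reg (n := n) p F y)
    (hdir : dirs hEd = ⊥) : False := by
  obtain ⟨B, hB⟩ := hF.hol
  -- a point of maximal rank of the lift over a regular point
  obtain ⟨Φ, Φl, ζ, hΦ, hΦl, hpΦ, hζ, hsur⟩ := (dom_iff.2 hD).lift hp.cov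
    {y : E | Reg (n := n) p F y} (H10.reg_open hp.cov hB) hreg
  exact no_ram_map hRam w hp hF hc hEd hne hcrit hdir hΦ hΦl hpΦ hζ hsur

/-- **MF**: assembly -/
theorem mf_of (hOne : OneStmt) (hRV : RVStmt) (hPre : PreStmt) (hBr : BrStmt) (hRam : RamStmt) :
    Grp.MFStmt := by
  intro n N X _ _ _ _ _ _ ι _ D hD w hw E Γ _ _ _ _ p hp
  -- all regular fibres are connected
  have key : ∀ (q : ℕ) (F : E → Cm q) (c : Γ → Cm q), Per p w F c → LatChar Γ q c →
      (∃ y, Reg (n := n) p F y) → ∀ t ∈ RV n p F, IsConnected (F ⁻¹' {t}) := by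
    intro q
    induction q using Nat.strong_induction_on with
    | _ q ih =>
    intro F c hF hc hreg
    have hone := hOne n N q X ι D hD w hw E Γ p hp F c hF hreg
    obtain ⟨Ed, hEd, hcrit, htop⟩ := hBr n q X w E Γ p hp F c hF hreg hone hc
    rcases (zs Ed).eq_empty_or_nonempty with hemp | hne
    · refine htop univ isOpen_univ convex_univ univ_nonempty ?_ ?_
      · rw [preimage_univ]; exact isPreconnected_univ
      · rw [hemp]; exact disjoint_empty _
    by_cases hdir : dirs hEd = ⊥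
    · exact (no_ram hRam hD w hp hF hreg hc hEd hne hcrit hdir).elim
    -- the quotient torus
    set V : Submodule ℂ (Cm q) := dirs hEd with hV
    set r : ℕ := Module.finrank ℂ (Cm q ⧸ V) with hr
    have hVpos : 0 < Module.finrank ℂ V := Nat.pos_of_ne_zero fun h => hdir (Submodule.finrank_eq_zero.1 h)
    have hsum : Module.finrank ℂ (Cm q ⧸ V) + Module.finrank ℂ V = q := by
      have := V.finrank_quotient_add_finrank
      rwa [Module.finrank_fin_fun] at this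
    have hrq : r < q := by omega
    let e : (Cm q ⧸ V) ≃ₗ[ℂ] Cm r := LinearEquiv.ofFinrankEq _ _ (by
      rw [Module.finrank_fin_fun])
    set L : Cm q →ₗ[ℂ] Cm r := e.toLinearMap ∘ₗ V.mkQ with hL
    have hLs : Function.Surjective L := e.surjective.comp V.mkQ_surjective
    have hker : LinearMap.ker L = V := by
      ext v
      rw [LinearMap.mem_ker, hL, LinearMap.comp_apply, LinearEquiv.coe_coe,
        LinearEquiv.map_eq_zero_iff, Submodule.mkQ_apply, Submodule.Quotient.mk_eq_zero]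
    have hlat : LatChar Γ r (fun g => L (c g)) := by
      refine hc.quot ⊤ V (fun v hv => ?_) L hLs hker
      have h1 := dirs_span hEd (coco_of hc) hv
      refine Submodule.span_mono ?_ h1
      rintro x ⟨⟨g, rfl⟩, hx⟩
      exact ⟨⟨g, trivial, rfl⟩, hx⟩
    have hF' := per_linear hF L hlat
    obtain ⟨B, hB⟩ := hF.hol
    have hreg' : ∃ y, Reg (n := n) p (fun y => L (F y)) y := by
      obtain ⟨y, hy⟩ := hreg
      exact ⟨y, Reg.linear hp.cov hB L hLs hy⟩
    have hih := ih r hrq (fun y => L (F y)) (fun g => L (c g)) hF' hlat hreg'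
    have hpre := hPre n r X w E Γ p hp (fun y => L (F y)) (fun g => L (c g)) hF' hreg' hih
    -- a ball of the quotient which does not meet the divisor
    obtain ⟨t₀, ht₀⟩ := zs_ne_univ hEd
    have hLc : Continuous L := L.continuous_of_finiteDimensional
    have hLo : IsOpenMap L := by
      have := (LinearMap.toContinuousLinearMap L).isOpenMap hLs
      exact this
    have hopen : IsOpen (L '' (zs Ed)ᶜ) := hLo _ (zs_closed hEd).isOpen_compl
    obtain ⟨ρ, hρ, hball⟩ := Metric.isOpen_iff.1 hopen (L t₀) ⟨t₀, ht₀, rfl⟩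
    refine htop (L ⁻¹' ball (L t₀) ρ) (isOpen_ball.preimage hLc) ?_ ⟨t₀, mem_ball_self hρ⟩
      (hpre (ball (L t₀) ρ) isOpen_ball (convex_ball _ _)) ?_
    · exact (convex_ball (L t₀) ρ).linear_preimage (L.restrictScalars ℝ)
    · rw [Set.disjoint_left]
      intro t ht htz
      obtain ⟨s, hs, hst⟩ := hball ht
      have h1 : t - s ∈ V := by
        rw [← hker, LinearMap.mem_ker, map_sub, hst, sub_self]
      apply hs
      have h2 := dirs_smul hEd h1 s
      rw [add_sub_cancel] at h2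
      exact h2.1 htz
  intro q F c hB heq hc hreg
  have hF : Per p w F c := ⟨hB, heq, hc.disc⟩
  obtain ⟨h1, h2, -⟩ := hRV n q X w E Γ p hp F c hF hreg
  refine ⟨(RV n p F)ᶜ, h1.isClosed_compl, ?_, fun t ht => ?_⟩
  · rw [interior_compl, h2.closure_eq, compl_univ]
  · rw [notMem_compl_iff] at ht
    exact ⟨key q F c hF hc hreg t ht, ht⟩

end Vale.Agent.P284.H213.MF
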