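import Vale.Agent.P284.H213.MF.MfD
import Vale.Agent.P284.H213.Q.AsmDom
import Vale.Agent.P284.H383.RamS
import Vale.Agent.P284.H494.Tail
import Vale.Agent.P284.H224.Top
import Vale.Agent.P284.H221.SigFinal

/-!
# P284, MF (helper213): MF with the modules which are proved
-/

open scoped Manifold ContDiff Topology ENNReal
open Filter Set Metric MeasureTheory

noncomputable section

namespace Vale.Agent.P284.H213.MF

open Vale.Agent.P272.K Vale.Agent.P284.H573 Vale.Agent.P284.H894.G Vale.Agent.P284.H894.W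
  Vale.Agent.P284.H494 Vale.Agent.P284.H998 Vale.Agent.P284.H672 Vale.Agent.P284.H224
  Vale.Agent.P284.H279 Vale.Agent.P284.H213.Grp Vale.Agent.P284.H213.Q

/-- MF for dominated manifolds, from the four modules which are left -/
theorem mfStmt_of (hEx : ExStmt) (hT5 : T5Stmt) (hLim : LimStmt) (hD1 : D1Stmt) : Grp.MFStmt :=
  mf_of (one_of hEx hT5 hLim tailStmt H221.sigStmt) rvStmt preStmt (br_of hD1 topStmt)
    H383.ramStmt

/-- MF for a class `D` -/
theorem mfD_of' {D : Cls} (hEx : ExStmt) (hT5 : T5Stmt) (hLim : LimStmt) (hD1 : D1Stmt)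
    (hSig : SigD D) (hRam : NoRamD D) : MFD D :=
  mfD_of (oneD_of hEx hT5 hLim tailStmt hSig) rvStmt preStmt (br_of hD1 topStmt) hRam

theorem sigD_dom (N : ℕ) : SigD (domC N) := by
  intro n R m hR hm X _ _ _ _ _ _ ι _ J hD E _ _ p hp hs H _ _ _ v hv hg
  exact H221.sigStmt n N R m hR hm X ι J hD E p hp hs H v hv hg

theorem noRamD_dom (N : ℕ) : NoRamD (domC N) := by
  refine noRamD_of H383.ramStmt ?_
  intro n X _ _ _ _ _ _ hD E Γ _ _ _ _ p hp w q F B hB hreg
  obtain ⟨Φ, Φl, ζ, hΦ, hΦl, hpΦ, hζ, hsur⟩ := (dom_iff.2 hD).lift hp.cov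
    {y : E | Reg (n := n) p F y} (H10.reg_open hp.cov hB) hreg
  exact ⟨N, Φ, Φl, ζ, hΦ, hΦl, hpΦ, hζ, hsur⟩

end Vale.Agent.P284.H213.MF
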