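import Vale.Agent.P284.H213.MF.MfU
import Vale.Agent.P284.H174.SigW

/-!
# P284, MF (helper213): MF for the projective manifolds with a holomorphic map `ℂᴺ → X` of rank `n`
at one point
-/

open scoped Manifold ContDiff Topology ENNReal
open Filter Set Metric MeasureTheory

noncomputable section

namespace Vale.Agent.P284.H213.MF

open Vale.Agent.P272.K Vale.Agent.P284.H573 Vale.Agent.P284.H894.G Vale.Agent.P284.H894.W
  Vale.Agent.P284.H494 Vale.Agent.P284.H998 Vale.Agent.P284.H672 Vale.Agent.P284.H224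
  Vale.Agent.P284.H279 Vale.Agent.P284.H213.Grp Vale.Agent.P284.H213.Q Vale.Agent.P284.H221
  Vale.Agent.P284.H174 Vale.Agent.P284.H174.GD Vale.Agent.P284.H10

/-- a holomorphic map `ℂᴺ → X` of rank `n` at one point lifts to every covering with a point of rank
`n` over a given dense set -/
theorem domW_lift {N n : ℕ} {X : Type} [TopologicalSpace X] [ChartedSpace (Cm n) X]
    [IsManifold 𝓘(ℂ, Cm n) ω X] (hD : DomW N n X) {E : Type} [TopologicalSpace E] {p : E → X}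
    (hp : IsCoveringMap p) (hs : Function.Surjective p) {S : Set E} (hS : Dense S) :
    ∃ (Φ : Cm N → X) (Φl : Cm N → E) (ζ : Cm N), ContMDiff 𝓘(ℂ, Cm N) 𝓘(ℂ, Cm n) ω Φ ∧
      Continuous Φl ∧ (∀ z, p (Φl z) = Φ z) ∧ Φl ζ ∈ S ∧ RkAt n Φ ζ := by
  obtain ⟨Φ, hΦ, ζ₀, hrk⟩ := hD
  obtain ⟨y₀, hy₀⟩ := hs (Φ ζ₀)
  obtain ⟨Φl, ⟨hΦl0, hpΦl⟩, -⟩ :=
    hp.existsUnique_continuousMap_lifts ⟨Φ, hΦ.continuous⟩ ζ₀ y₀ hy₀
  have hpΦ : ∀ ζ, p (Φl ζ) = Φ ζ := fun ζ => congrFun hpΦl ζ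
  obtain ⟨e, ε, hε, hyε, -, -⟩ := exists_ch (n := n) hp (Φl ζ₀) univ_mem
  have hAt : At e (Φ ζ₀) := ⟨hε.mem, by rw [← hpΦ]; exact hε.src _ hyε⟩
  have hA : {ζ | Φl ζ ∈ ε.source ∧ RkAt n Φ ζ} ∈ 𝓝 ζ₀ :=
    inter_mem (Φl.continuous.continuousAt (ε.open_source.mem_nhds hyε)) (rkAt_eventually hΦ hrk)
  have hV : (fun ξ => e (Φ ξ)) '' {ζ | Φl ζ ∈ ε.source ∧ RkAt n Φ ζ} ∈ 𝓝 (ε (Φl ζ₀)) := by
    rw [hε.eq _ hyε, hpΦ, ← map_nhds_of_rk hΦ hrk hAt]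
    exact image_mem_map hA
  have hU : ε.source ∩ ε ⁻¹' ((fun ξ => e (Φ ξ)) '' {ζ | Φl ζ ∈ ε.source ∧ RkAt n Φ ζ}) ∈
      𝓝 (Φl ζ₀) := inter_mem (ε.open_source.mem_nhds hyε) ((ε.continuousAt hyε) hV)
  obtain ⟨y, ⟨hy1, ζ, ⟨hζ1, hζ2⟩, hζ3⟩, hy2⟩ := mem_closure_iff_nhds.1 (hS (Φl ζ₀)) _ hU
  refine ⟨Φ, Φl, ζ, hΦ, Φl.continuous, hpΦ, ?_, hζ2⟩
  have : Φl ζ = y := by
    refine ε.injOn hζ1 hy1 ?_
    rw [hε.eq _ hζ1, hpΦ]
    exact hζ3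
  rw [this]
  exact hy2

theorem sigD_domW (N : ℕ) : SigD (fun n X _ _ => DomW N n X) := by
  intro n R m hR hm X _ _ _ _ _ _ ι _ J hD E _ _ p hp hs H _ _ _ v hv hg
  exact sigW n N R m hR hm X ι J hD E p hp hs H v hv hg

theorem noRamD_domW (N : ℕ) : NoRamD (fun n X _ _ => DomW N n X) := by
  refine noRamD_of H383.ramStmt ?_
  intro n X _ _ _ _ _ _ hD E Γ _ _ _ _ p hp w q F B hB hreg
  have hdense : Dense {y : E | Reg (n := n) p F y} := by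
    rcases Nat.eq_zero_or_pos q with h0 | h0
    · subst h0
      have : {y : E | Reg (n := n) p F y} = univ := by
        ext y
        simp only [mem_univ, iff_true]
        intro e f _ _ v
        exact ⟨0, Subsingleton.elim _ _⟩
      rw [this]
      exact dense_univ
    · exact H10.reg_dense h0 hp.cov hB hreg
  obtain ⟨Φ, Φl, ζ, hΦ, hΦl, hpΦ, hζ, e, he, hsur⟩ := domW_lift hD hp.cov hp.surj hdense
  have h3 : MDifferentiableAt 𝓘(ℂ, Cm N) 𝓘(ℂ, Cm n) Φ ζ := (hΦ.mdifferentiable (by simp)) ζ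
  exact ⟨N, Φ, Φl, ζ, hΦ, hΦl, hpΦ, hζ, (H885.surj_mfderiv_iff h3 he).2 hsur⟩

/-- **MF** for the manifolds with a holomorphic map `ℂᴺ → X` of rank `n` at one point -/
theorem mfD_domW (N : ℕ) : MFD (fun n X _ _ => DomW N n X) :=
  mfDU (sigD_domW N) (noRamD_domW N)

end Vale.Agent.P284.H213.MF
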