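import Vale.Agent.P284.H672.ExS
import Vale.Agent.P284.H224.TopS
import Vale.Agent.P284.H221.SigS

/-!
# P284, MF (helper213): assembly of MF(I): two components of a regular fibre are equivalent under the
kernel of the periods
-/

open scoped Manifold ContDiff Topology ENNReal
open Filter Set Metric MeasureTheory

noncomputable section

namespace Vale.Agent.P284.H213.MF

open Vale.Agent.P272.K Vale.Agent.P284.H573 Vale.Agent.P284.H894.G Vale.Agent.P284.H894.W
  Vale.Agent.P284.H494 Vale.Agent.P284.H998 Vale.Agent.P284.H672 Vale.Agent.P284.H224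
  Vale.Agent.P284.H221

/-- **MF(I)** -/
def OneStmt : Prop :=
  ∀ (n N q : ℕ) (X : Type) [TopologicalSpace X] [T2Space X] [CompactSpace X] [ConnectedSpace X]
    [ChartedSpace (Cm n) X] [IsManifold 𝓘(ℂ, Cm n) ω X] (ι : Type) [Fintype ι] (_ : PJ n X ι)
    (_ : Dom N n X) (w : Chart n X → Cm n → Matrix (Fin n) (Fin n) ℂ), IsKahler w →
    ∀ (E Γ : Type) [TopologicalSpace E] [ConnectedSpace E] [Group Γ] [MulAction Γ E]
      (p : E → X), IsGalois Γ p →
    ∀ (F : E → Cm q) (c : Γ → Cm q), Per p w F c → (∃ y, Reg (n := n) p F y) → One n Γ p F c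

/-- MF(I) from its modules -/
theorem one_of (hEx : ExStmt) (hT5 : T5Stmt) (hLim : LimStmt) (hTail : TailStmt)
    (hSig : SigStmt) : OneStmt := by
  intro n N q X _ _ _ _ _ _ ι _ D hD w hw E Γ _ _ _ _ p hp F c hF hreg y y' hyy hrv
  by_contra hcon
  push Not at hcon
  obtain ⟨h, hh⟩ := hEx n q X ι D w hw E Γ p hp F c hF y y' hyy hrv hcon
  obtain ⟨W, _, _, _, h₁, hs, hU, hne⟩ := hLim n q X w E Γ p hp F c hF h hh
  obtain ⟨s, hs1, hs2⟩ := hT5 n q X ι D w E Γ p hp F c hF hreg W h₁ hs (by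
    intro g _ y hy
    obtain ⟨U, hU⟩ := hU g
    rw [hU y hy, U.norm_map])
  obtain ⟨r, m, H, _, _, _, v, hr, hm, hv, hg⟩ := hTail n q X w E Γ p hp F c hF W h₁
    { loc := hs.loc, ext := hs.ext, equiv := hU, int := ⟨s, hs1, hs2⟩, ne := hne }
  exact hSig n N r m hr hm X ι D hD E p hp.cov hp.surj H v hv hg

end Vale.Agent.P284.H213.MF
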